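import Mathlib

open MeasureTheory ProbabilityTheory

namespace Vale.Agent.P367.GT

/-- One-dimensional Gaussian integration by parts. -/
lemma stein_one (g g' : ℝ → ℝ) (C : ℝ) (hd : ∀ x, HasDerivAt g (g' x) x)
    (hg : ∀ x, |g x| ≤ C) (hg' : ∀ x, |g' x| ≤ C) :
    ∫ x, x * g x ∂(gaussianReal 0 1) = ∫ x, g' x ∂(gaussianReal 0 1) := by
  have hgm : Measurable g := (continuous_iff_continuousAt.mpr fun x => (hd x).continuousAt).measurable
  have hg'e : g' = deriv g := by funext x; exact (hd x).deriv.symm
  have hg'm : Measurable g' := by rw [hg'e]; exact measurable_deriv g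
  have hC : 0 ≤ C := (abs_nonneg _).trans (hg 0)
  set φ : ℝ → ℝ := gaussianPDFReal 0 1 with hφ
  have hφd : ∀ x, HasDerivAt φ (-(x * φ x)) x := by
    intro x
    have h1 : HasDerivAt (fun y : ℝ => -(y - 0) ^ 2 / (2 * ((1 : NNReal) : ℝ))) (-x) x := by
      have h2 : HasDerivAt (fun y : ℝ => -(y ^ 2) / 2) (-(2 * x) / 2) x := by
        have h0 := ((hasDerivAt_pow 2 x).neg).div_const (2 : ℝ)
        simpa using h0
      have h2' : (fun y : ℝ => -(y - 0) ^ 2 / (2 * ((1 : NNReal) : ℝ))) = fun y => -(y ^ 2) / 2 := by
        funext y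
        simp
      rw [h2']
      have h2'' : -x = -(2 * x) / 2 := by ring
      rw [h2'']
      exact h2
    have h3 := (h1.exp).const_mul ((Real.sqrt (2 * Real.pi * ((1 : NNReal) : ℝ)))⁻¹)
    have h4 : φ = fun y => (Real.sqrt (2 * Real.pi * ((1 : NNReal) : ℝ)))⁻¹
        * Real.exp (-(y - 0) ^ 2 / (2 * ((1 : NNReal) : ℝ))) := by
      funext y
      rw [hφ, gaussianPDFReal_def]
    have h5 : -(x * φ x) = (Real.sqrt (2 * Real.pi * ((1 : NNReal) : ℝ)))⁻¹
        * (Real.exp (-(x - 0) ^ 2 / (2 * ((1 : NNReal) : ℝ))) * -x) := by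
      rw [h4]
      ring
    rw [h5, h4]
    exact h3
  have hφi : Integrable φ := integrable_gaussianPDFReal 0 1
  have hxφ : Integrable (fun x => x * φ x) := by
    have h1 : Integrable (fun x : ℝ => x) (gaussianReal 0 1) :=
      (memLp_id_gaussianReal 1).integrable le_rfl
    rw [gaussianReal_of_var_ne_zero _ one_ne_zero] at h1
    have h2 := (integrable_withDensity_iff_integrable_smul'
      (measurable_gaussianPDF 0 1) (by
        refine Filter.Eventually.of_forall fun x => ?_
        exact gaussianPDF_lt_top)).mp h1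
    refine h2.congr (Filter.Eventually.of_forall fun x => ?_)
    simp only [smul_eq_mul, gaussianPDF, ENNReal.toReal_ofReal (gaussianPDFReal_nonneg 0 1 x)]
    ring
  have e1 : ∫ x, x * g x ∂(gaussianReal 0 1) = ∫ x, φ x * (x * g x) := by
    rw [integral_gaussianReal_eq_integral_smul one_ne_zero]
    rfl
  have e2 : ∫ x, g' x ∂(gaussianReal 0 1) = ∫ x, φ x * g' x := by
    rw [integral_gaussianReal_eq_integral_smul one_ne_zero]
    rfl
  have hmul : ∀ (u v : ℝ → ℝ), Integrable v → Measurable u → (∀ x, |u x| ≤ C) →
      Integrable (fun x => u x * v x) := by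
    intro u v hv hu hb
    refine hv.bdd_mul (c := C) hu.aestronglyMeasurable ?_
    exact Filter.Eventually.of_forall fun x => by
      rw [Real.norm_eq_abs]; exact hb x
  have key := integral_mul_deriv_eq_deriv_mul_of_integrable (u := g) (v := φ) (u' := g')
    (v' := fun x => -(x * φ x)) (fun x _ => hd x) (fun x _ => hφd x)
    (hmul g _ hxφ.neg hgm hg) (hmul g' _ hφi hg'm hg') (hmul g _ hφi hgm hg)
  rw [e1, e2]
  have h5 : ∫ x, φ x * (x * g x) = - ∫ x, g x * -(x * φ x) := by
    rw [← integral_neg]
    congr 1
    funext x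
    ring
  rw [h5, key, neg_neg]
  congr 1
  funext x
  ring

/-- The standard Gaussian measure. -/
noncomputable abbrev gM (ι : Type*) [Fintype ι] : Measure (ι → ℝ) :=
  Measure.pi fun _ : ι => gaussianReal 0 1

variable {ι : Type*} [DecidableEq ι]

lemma measurable_upd (e : ι) :
    Measurable (fun q : (ι → ℝ) × ℝ => Function.update q.1 e q.2) := by
  rw [measurable_pi_iff]
  intro i
  by_cases h : i = e
  · subst h
    simp only [Function.update_self]
    exact measurable_snd
  · simp only [Function.update_of_ne h]
    exact (measurable_pi_apply i).comp measurable_fst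

variable [Fintype ι]

/-- Resampling one coordinate. -/
lemma map_update (e : ι) :
    ((gM ι).prod (gaussianReal 0 1)).map (fun q : (ι → ℝ) × ℝ => Function.update q.1 e q.2)
      = gM ι := by
  symm
  apply Measure.pi_eq
  intro s hs
  rw [Measure.map_apply (measurable_upd e) (MeasurableSet.univ_pi hs)]
  have h1 : (fun q : (ι → ℝ) × ℝ => Function.update q.1 e q.2) ⁻¹' (Set.univ.pi s)
      = (Set.univ.pi (Function.update s e Set.univ)) ×ˢ (s e) := by
    ext ⟨J, x⟩
    simp only [Set.mem_preimage, Set.mem_pi, Set.mem_univ, forall_true_left, Set.mem_prod]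
    constructor
    · intro h
      refine ⟨fun i => ?_, ?_⟩
      · by_cases hi : i = e
        · subst hi; simp
        · have := h i
          simpa [Function.update_of_ne hi] using this
      · simpa using h e
    · rintro ⟨h, h'⟩ i
      by_cases hi : i = e
      · subst hi; simpa using h'
      · have := h i
        simpa [Function.update_of_ne hi] using this
  rw [h1, Measure.prod_prod, Measure.pi_pi]
  rw [← Finset.prod_erase_mul _ _ (Finset.mem_univ e),
    ← Finset.prod_erase_mul (s := Finset.univ) (a := e) _ (Finset.mem_univ e)]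
  simp only [Function.update_self, measure_univ, mul_one]
  congr 1
  apply Finset.prod_congr rfl
  intro i hi
  rw [Function.update_of_ne (Finset.ne_of_mem_erase hi)]

/-- Gaussian integration by parts in the coordinate `e`. -/
lemma stein_pi (e : ι) (G G' : (ι → ℝ) → ℝ) (C : ℝ) (hGm : Measurable G) (hG'm : Measurable G')
    (hd : ∀ J x, HasDerivAt (fun y => G (Function.update J e y)) (G' (Function.update J e x)) x)
    (hG : ∀ J, |G J| ≤ C) (hG' : ∀ J, |G' J| ≤ C) :
    ∫ J, J e * G J ∂(gM ι) = ∫ J, G' J ∂(gM ι) := by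
  have hJi : Integrable (fun J : ι → ℝ => J e) (gM ι) :=
    integrable_comp_eval (μ := fun _ : ι => gaussianReal 0 1) (i := e) (f := fun x => x)
      ((memLp_id_gaussianReal 1).integrable le_rfl)
  have hi1 : Integrable (fun J : ι → ℝ => J e * G J) (gM ι) := by
    have := hJi.bdd_mul (c := C) (f := G) hGm.aestronglyMeasurable
      (Filter.Eventually.of_forall fun J => by rw [Real.norm_eq_abs]; exact hG J)
    refine this.congr (Filter.Eventually.of_forall fun J => ?_)
    simp only [mul_comm]
  have hi2 : Integrable G' (gM ι) := by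
    refine Integrable.mono' (integrable_const C) hG'm.aestronglyMeasurable
      (Filter.Eventually.of_forall fun J => by rw [Real.norm_eq_abs]; exact hG' J)
  have hres : ∀ F : (ι → ℝ) → ℝ, Integrable F (gM ι) →
      ∫ J, F J ∂(gM ι) = ∫ J, ∫ x, F (Function.update J e x) ∂(gaussianReal 0 1) ∂(gM ι) := by
    intro F hF
    have hF' : Integrable F (((gM ι).prod (gaussianReal 0 1)).map
        (fun q : (ι → ℝ) × ℝ => Function.update q.1 e q.2)) := by
      rw [map_update]; exact hF
    conv_lhs => rw [← map_update (ι := ι) e]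
    rw [integral_map (measurable_upd e).aemeasurable hF'.aestronglyMeasurable]
    rw [integral_prod]
    exact (integrable_map_measure hF'.aestronglyMeasurable
      (measurable_upd e).aemeasurable).mp hF'
  rw [hres _ hi1, hres _ hi2]
  congr 1
  funext J
  have := stein_one (fun x => G (Function.update J e x)) (fun x => G' (Function.update J e x)) C
    (hd J) (fun x => hG _) (fun x => hG' _)
  simpa only [Function.update_self] using this

end Vale.Agent.P367.GT
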