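import Vale.Agent.P367.GT.Compare
import Vale.Agent.P367.Gap.Moment

open MeasureTheory ProbabilityTheory Vale.Agent.P367.Gap

namespace Vale.Agent.P367.GT

lemma two_sum_pair {n : ℕ} (g : Fin n → Fin n → ℝ) (hg : ∀ a b, g a b = g b a) :
    2 * ∑ e : Pair n, g e.1.1 e.1.2 = (∑ a, ∑ b, g a b) - ∑ a, g a a := by
  have h2 : ∑ a : Fin n, ∑ b : Fin n, (if a < b then g a b else 0)
      = ∑ a : Fin n, ∑ b : Fin n, (if b < a then g a b else 0) := by
    rw [Finset.sum_comm]
    apply Finset.sum_congr rfl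
    intro a _
    apply Finset.sum_congr rfl
    intro b _
    rw [hg]
  have h3 : 2 * ∑ e : Pair n, g e.1.1 e.1.2 = ∑ a : Fin n, ∑ b : Fin n,
      ((if a < b then g a b else 0) + (if b < a then g a b else 0)) := by
    rw [two_mul, sum_pair]
    conv_lhs => rw [h2]
    simp only [Finset.sum_add_distrib]
    rw [← h2]
  have h4 : ∑ a : Fin n, g a a = ∑ a : Fin n, ∑ b : Fin n, (if a = b then g a b else 0) := by
    apply Finset.sum_congr rfl
    intro a _
    simp
  rw [h3, h4, ← Finset.sum_sub_distrib]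
  apply Finset.sum_congr rfl
  intro a _
  rw [← Finset.sum_sub_distrib]
  apply Finset.sum_congr rfl
  intro b _
  rcases lt_trichotomy a b with h | h | h
  · simp [h, h.ne, h.not_gt]
  · subst h; simp
  · simp [h, h.ne', h.not_gt]

lemma inc_eq {n : ℕ} (hn : 0 < n) (s t : Conf n) :
    ∑ e : Pair n, ((Real.sqrt n)⁻¹ * chi s e - (Real.sqrt n)⁻¹ * chi t e) ^ 2
      = n - (∑ i, spin (s i) * spin (t i)) ^ 2 / n := by
  have hnr : (0 : ℝ) < n := by exact_mod_cast hn
  set x : Fin n → ℝ := fun i => spin (s i) * spin (t i) with hx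
  have hx2 : ∀ i, x i * x i = 1 := by
    intro i
    simp only [hx]
    calc spin (s i) * spin (t i) * (spin (s i) * spin (t i))
        = (spin (s i) * spin (s i)) * (spin (t i) * spin (t i)) := by ring
      _ = 1 := by rw [spin_sq, spin_sq, one_mul]
  have h1 : ∀ e : Pair n, ((Real.sqrt n)⁻¹ * chi s e - (Real.sqrt n)⁻¹ * chi t e) ^ 2
      = (n : ℝ)⁻¹ * (2 * (1 - x e.1.1 * x e.1.2)) := by
    intro e
    have e1 := chi_sq s e
    have e2 := chi_sq t e
    have e3 : x e.1.1 * x e.1.2 = chi s e * chi t e := by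
      simp only [hx, chi]; ring
    calc ((Real.sqrt n)⁻¹ * chi s e - (Real.sqrt n)⁻¹ * chi t e) ^ 2
        = ((Real.sqrt n)⁻¹ * (Real.sqrt n)⁻¹) *
          (chi s e * chi s e + chi t e * chi t e - 2 * (chi s e * chi t e)) := by ring
      _ = _ := by rw [inv_sqrt_mul, e1, e2, e3]; ring
  simp only [h1]
  rw [← Finset.mul_sum, ← Finset.mul_sum]
  rw [two_sum_pair (fun a b => 1 - x a * x b) (fun a b => by ring)]
  have h2 : ∑ a : Fin n, (1 - x a * x a) = 0 := by
    apply Finset.sum_eq_zero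
    intro a _
    rw [hx2]; ring
  have h3 : ∑ a : Fin n, ∑ b : Fin n, (1 - x a * x b) = (n : ℝ) * n - (∑ i, x i) ^ 2 := by
    simp only [Finset.sum_sub_distrib]
    congr 1
    · simp
    · rw [sq, Finset.sum_mul_sum]
  rw [h2, h3]
  field_simp
  ring

lemma map_comp_inj {κ ι : Type*} [Fintype κ] [Fintype ι] (f : κ → ι)
    (hf : Function.Injective f) :
    (gM ι).map (fun J => J ∘ f) = gM κ := by
  classical
  have hm : Measurable (fun J : ι → ℝ => J ∘ f) :=
    measurable_pi_iff.mpr fun k => measurable_pi_apply (f k)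
  symm
  apply Measure.pi_eq
  intro s hs
  rw [Measure.map_apply hm (MeasurableSet.univ_pi hs)]
  set t : ι → Set ℝ := fun i => if h : ∃ k, f k = i then s h.choose else Set.univ with ht
  have htf : ∀ k, t (f k) = s k := by
    intro k
    have h : ∃ k', f k' = f k := ⟨k, rfl⟩
    simp only [ht, dif_pos h]
    rw [hf h.choose_spec]
  have h1 : (fun J : ι → ℝ => J ∘ f) ⁻¹' (Set.univ.pi s) = Set.univ.pi t := by
    ext J
    simp only [Set.mem_preimage, Set.mem_pi, Set.mem_univ, forall_true_left, Function.comp]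
    constructor
    · intro h i
      by_cases hi : ∃ k, f k = i
      · obtain ⟨k, rfl⟩ := hi
        rw [htf]; exact h k
      · simp only [ht, dif_neg hi, Set.mem_univ]
    · intro h k
      have := h (f k)
      rwa [htf] at this
  rw [h1, Measure.pi_pi]
  have h2 : ∏ i, (gaussianReal 0 1) (t i) = ∏ i ∈ Finset.univ.image f, (gaussianReal 0 1) (t i) := by
    symm
    apply Finset.prod_subset (Finset.subset_univ _)
    intro i _ hi
    have h3 : ¬ ∃ k, f k = i := by
      rintro ⟨k, rfl⟩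
      exact hi (Finset.mem_image_of_mem f (Finset.mem_univ k))
    simp only [ht, dif_neg h3, measure_univ]
  rw [h2, Finset.prod_image (fun a _ b _ h => hf h)]
  simp only [htf]

lemma integral_comp_inj {κ ι : Type*} [Fintype κ] [Fintype ι] (f : κ → ι)
    (hf : Function.Injective f) (F : (κ → ℝ) → ℝ) (hF : Measurable F) :
    ∫ J : ι → ℝ, F (J ∘ f) ∂(gM ι) = ∫ J, F J ∂(gM κ) := by
  have hm : Measurable (fun J : ι → ℝ => J ∘ f) :=
    measurable_pi_iff.mpr fun k => measurable_pi_apply (f k)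
  rw [← map_comp_inj f hf, integral_map hm.aemeasurable hF.aestronglyMeasurable]

/-- `E max_σ h(σ)`. -/
noncomputable def Msup (n : ℕ) : ℝ := ∫ J, (⨆ s : Conf n, skEnergy J s) ∂(couplingLaw n)

lemma skEnergy_eq {n : ℕ} (J : Pair n → ℝ) (s : Conf n) :
    skEnergy J s = ∑ e, ((Real.sqrt n)⁻¹ * chi s e) * J e := by
  unfold skEnergy chi
  rw [Finset.mul_sum]
  apply Finset.sum_congr rfl
  intro e _
  ring

lemma sq_div_add_le (x y n m : ℝ) (hn : 0 < n) (hm : 0 < m) :
    (x + y) ^ 2 / (n + m) ≤ x ^ 2 / n + y ^ 2 / m := by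
  rw [div_add_div _ _ hn.ne' hm.ne', div_le_div_iff₀ (by positivity) (by positivity)]
  nlinarith [mul_pos hn hm, sq_nonneg (m * x - n * y), sq_nonneg (x - y)]

lemma continuous_sup {n : ℕ} : Measurable fun J : Pair n → ℝ => ⨆ s : Conf n, skEnergy J s :=
  Measurable.iSup fun s => (continuous_skEnergy s).measurable

/-- **Superadditivity** (Guerra-Toninelli). -/
theorem Msup_superadd (n m : ℕ) (hn : 0 < n) (hm : 0 < m) :
    Msup n + Msup m ≤ Msup (n + m) := by
  set a : Conf (n + m) → (Pair n ⊕ Pair m) ⊕ Pair (n + m) → ℝ := fun s =>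
    Sum.elim (Sum.elim (fun e => (Real.sqrt n)⁻¹ * chi (fun i => s (Fin.castAdd m i)) e)
      (fun e => (Real.sqrt m)⁻¹ * chi (fun i => s (Fin.natAdd n i)) e)) (fun _ => 0) with ha
  set b : Conf (n + m) → (Pair n ⊕ Pair m) ⊕ Pair (n + m) → ℝ := fun s =>
    Sum.elim (fun _ => 0) (fun e => (Real.sqrt ((n + m : ℕ) : ℝ))⁻¹ * chi s e) with hb
  have hnr : (0 : ℝ) < n := by exact_mod_cast hn
  have hmr : (0 : ℝ) < m := by exact_mod_cast hm
  have key := sup_le_same a b
    (by
      intro s t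
      rw [Fintype.sum_sum_type]
      simp [ha, hb])
    (by
      intro s t
      rw [Fintype.sum_sum_type, Fintype.sum_sum_type, Fintype.sum_sum_type]
      simp only [ha, hb, Sum.elim_inl, Sum.elim_inr, sub_self, ne_eq, OfNat.ofNat_ne_zero,
        not_false_eq_true, zero_pow, Finset.sum_const_zero, add_zero, zero_add]
      rw [inc_eq hn, inc_eq hm, inc_eq (by omega : 0 < n + m), Fin.sum_univ_add]
      have := sq_div_add_le (∑ i, spin (s (Fin.castAdd m i)) * spin (t (Fin.castAdd m i)))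
        (∑ i, spin (s (Fin.natAdd n i)) * spin (t (Fin.natAdd n i))) n m hnr hmr
      push_cast
      linarith)
  have hza : ∀ (J : (Pair n ⊕ Pair m) ⊕ Pair (n + m) → ℝ) (s : Conf (n + m)), zf a J s
      = skEnergy (J ∘ (fun e => Sum.inl (Sum.inl e))) (fun i => s (Fin.castAdd m i))
        + skEnergy (J ∘ (fun e => Sum.inl (Sum.inr e))) (fun i => s (Fin.natAdd n i)) := by
    intro J s
    unfold zf
    rw [Fintype.sum_sum_type, Fintype.sum_sum_type, skEnergy_eq, skEnergy_eq]
    simp [ha]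
  have hzb : ∀ (J : (Pair n ⊕ Pair m) ⊕ Pair (n + m) → ℝ) (s : Conf (n + m)), zf b J s
      = skEnergy (J ∘ Sum.inr) s := by
    intro J s
    unfold zf
    rw [Fintype.sum_sum_type, skEnergy_eq]
    simp [hb]
  have hR : ∫ J, ⨆ s, zf b J s ∂(gM _) = Msup (n + m) := by
    simp only [hzb]
    exact integral_comp_inj (Sum.inr : Pair (n + m) → (Pair n ⊕ Pair m) ⊕ Pair (n + m))
      Sum.inr_injective (fun J => ⨆ s : Conf (n + m), skEnergy J s) continuous_sup
  have hi1 : Function.Injective (fun e : Pair n =>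
      (Sum.inl (Sum.inl e) : (Pair n ⊕ Pair m) ⊕ Pair (n + m))) :=
    Sum.inl_injective.comp Sum.inl_injective
  have hi2 : Function.Injective (fun e : Pair m =>
      (Sum.inl (Sum.inr e) : (Pair n ⊕ Pair m) ⊕ Pair (n + m))) :=
    Sum.inl_injective.comp Sum.inr_injective
  have hL : Msup n + Msup m ≤ ∫ J, ⨆ s, zf a J s ∂(gM _) := by
    have e1 : Msup n = ∫ J : (Pair n ⊕ Pair m) ⊕ Pair (n + m) → ℝ,
        (⨆ s : Conf n, skEnergy (J ∘ (fun e => Sum.inl (Sum.inl e))) s) ∂(gM _) :=
      (integral_comp_inj _ hi1 (fun J => ⨆ s : Conf n, skEnergy J s) continuous_sup).symm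
    have e2 : Msup m = ∫ J : (Pair n ⊕ Pair m) ⊕ Pair (n + m) → ℝ,
        (⨆ s : Conf m, skEnergy (J ∘ (fun e => Sum.inl (Sum.inr e))) s) ∂(gM _) :=
      (integral_comp_inj _ hi2 (fun J => ⨆ s : Conf m, skEnergy J s) continuous_sup).symm
    have hint : ∀ {k : ℕ}, Integrable (fun J : Pair k → ℝ => ⨆ s : Conf k, skEnergy J s)
        (gM (Pair k)) := by
      intro k
      exact integrable_iSup (fun (s : Conf k) (J : Pair k → ℝ) => skEnergy J s)
        (fun s => integrable_energy s) (fun s => (continuous_skEnergy s).measurable)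
    have hint' : ∀ {k : ℕ} (f : Pair k → (Pair n ⊕ Pair m) ⊕ Pair (n + m)),
        Function.Injective f → Integrable (fun J : (Pair n ⊕ Pair m) ⊕ Pair (n + m) → ℝ =>
          ⨆ s : Conf k, skEnergy (J ∘ f) s) (gM _) := by
      intro k f hf
      have hm' : Measurable (fun J : (Pair n ⊕ Pair m) ⊕ Pair (n + m) → ℝ => J ∘ f) :=
        measurable_pi_iff.mpr fun k => measurable_pi_apply (f k)
      have h1 : Integrable (fun J : Pair k → ℝ => ⨆ s : Conf k, skEnergy J s)
          ((gM _).map (fun J : (Pair n ⊕ Pair m) ⊕ Pair (n + m) → ℝ => J ∘ f)) := by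
        rw [map_comp_inj f hf]; exact hint
      exact (integrable_map_measure h1.aestronglyMeasurable hm'.aemeasurable).mp h1
    rw [e1, e2, ← integral_add (hint' _ hi1) (hint' _ hi2)]
    apply integral_mono ((hint' _ hi1).add (hint' _ hi2)) (integrable_sup_zf a)
    intro J
    simp only [Pi.add_apply]
    obtain ⟨s1, hs1⟩ := exists_eq_ciSup_of_finite
      (f := fun s : Conf n => skEnergy (J ∘ (fun e => Sum.inl (Sum.inl e))) s)
    obtain ⟨s2, hs2⟩ := exists_eq_ciSup_of_finite
      (f := fun s : Conf m => skEnergy (J ∘ (fun e => Sum.inl (Sum.inr e))) s)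
    rw [← hs1, ← hs2]
    have h1 : skEnergy (J ∘ (fun e => Sum.inl (Sum.inl e))) s1
        + skEnergy (J ∘ (fun e => Sum.inl (Sum.inr e))) s2 = zf a J (Fin.append s1 s2) := by
      rw [hza]
      simp
    rw [h1]
    exact le_ciSup (f := fun s => zf a J s) (Set.finite_range _).bddAbove _
  rw [hR] at key
  exact hL.trans key

theorem groundValue_tendsto : ∃ P : ℝ, Filter.Tendsto groundValue Filter.atTop (nhds P) := by
  have hsub : Subadditive fun n => -Msup n := by
    intro n m
    have h0 : Msup 0 = 0 := by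
      unfold Msup
      have h1 : ∀ (J : Pair 0 → ℝ) (s : Conf 0), skEnergy J s = 0 := by
        intro J s
        unfold skEnergy
        simp
      simp [h1]
    rcases Nat.eq_zero_or_pos n with hn | hn
    · subst hn
      simp [h0]
    rcases Nat.eq_zero_or_pos m with hm | hm
    · subst hm
      simp [h0]
    have := Msup_superadd n m hn hm
    simp only
    linarith
  have hbdd : BddBelow (Set.range fun n : ℕ => (fun n => -Msup n) n / (n : ℝ)) := by
    refine ⟨-1, ?_⟩
    rintro _ ⟨n, rfl⟩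
    simp only
    rcases Nat.eq_zero_or_pos n with hn | hn
    · subst hn; simp
    · have hnr : (0 : ℝ) < n := by exact_mod_cast hn
      rw [le_div_iff₀ hnr]
      have h1 : Msup n ≤ n := integral_sup_le_one n
      linarith
  have h := hsub.tendsto_lim hbdd
  refine ⟨-hsub.lim, ?_⟩
  refine (h.neg).congr fun n => ?_
  show -(-Msup n / (n : ℝ)) = groundValue n
  unfold groundValue Msup
  rw [neg_div, neg_neg, div_eq_inv_mul]

end Vale.Agent.P367.GT
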