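import Vale.Agent.P367.GT.Slepian

open MeasureTheory ProbabilityTheory

namespace Vale.Agent.P367.GT

variable {S ι : Type*} [Fintype S] [Nonempty S] [Fintype ι]

/-- interpolating vectors -/
noncomputable def ww (a b : S → ι → ℝ) (θ : ℝ) (s : S) (e : ι) : ℝ :=
  Real.cos θ * a s e + Real.sin θ * b s e

/-- derivative of the interpolating vectors -/
noncomputable def wd (a b : S → ι → ℝ) (θ : ℝ) (s : S) (e : ι) : ℝ :=
  -Real.sin θ * a s e + Real.cos θ * b s e

omit [Fintype S] [Nonempty S] in
lemma hasDerivAt_zf (a b : S → ι → ℝ) (J : ι → ℝ) (s : S) (θ : ℝ) :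
    HasDerivAt (fun θ => zf (ww a b θ) J s) (zf (wd a b θ) J s) θ := by
  unfold zf
  apply HasDerivAt.fun_sum
  intro e _
  apply HasDerivAt.mul_const
  unfold ww wd
  exact ((Real.hasDerivAt_cos θ).mul_const _).add ((Real.hasDerivAt_sin θ).mul_const _)

/-- interpolating free energy -/
noncomputable def phi (a b : S → ι → ℝ) (θ : ℝ) : ℝ :=
  ∫ J, Real.log (part (ww a b θ) J) ∂(gM ι)

omit [Fintype S] [Nonempty S] [Fintype ι] in
lemma abs_ww_le (a b : S → ι → ℝ) (θ : ℝ) (s : S) (e : ι) :
    |ww a b θ s e| ≤ |a s e| + |b s e| := by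
  unfold ww
  refine (abs_add_le _ _).trans ?_
  rw [abs_mul, abs_mul]
  have h1 := Real.abs_cos_le_one θ
  have h2 := Real.abs_sin_le_one θ
  have h3 := abs_nonneg (a s e)
  have h4 := abs_nonneg (b s e)
  nlinarith [abs_nonneg (Real.cos θ), abs_nonneg (Real.sin θ)]

omit [Fintype S] [Nonempty S] [Fintype ι] in
lemma abs_wd_le (a b : S → ι → ℝ) (θ : ℝ) (s : S) (e : ι) :
    |wd a b θ s e| ≤ |a s e| + |b s e| := by
  unfold wd
  refine (abs_add_le _ _).trans ?_
  rw [abs_mul, abs_mul, abs_neg]
  have h1 := Real.abs_cos_le_one θ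
  have h2 := Real.abs_sin_le_one θ
  have h3 := abs_nonneg (a s e)
  have h4 := abs_nonneg (b s e)
  nlinarith [abs_nonneg (Real.cos θ), abs_nonneg (Real.sin θ)]

/-- dominating function -/
noncomputable def bnd (a b : S → ι → ℝ) (J : ι → ℝ) : ℝ :=
  ∑ s, ∑ e, (|a s e| + |b s e|) * |J e|

omit [Nonempty S] in
lemma integrable_bnd (a b : S → ι → ℝ) : Integrable (bnd a b) (gM ι) := by
  unfold bnd
  exact integrable_finsetSum _ fun s _ => integrable_finsetSum _ fun e _ =>
    ((integrable_coord e).abs).const_mul _

omit [Nonempty S] in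
lemma abs_zf_le (a b v : S → ι → ℝ) (hv : ∀ s e, |v s e| ≤ |a s e| + |b s e|) (J : ι → ℝ)
    (s : S) : |zf v J s| ≤ bnd a b J := by
  unfold zf bnd
  have h1 : |∑ e, v s e * J e| ≤ ∑ e, (|a s e| + |b s e|) * |J e| := by
    refine (Finset.abs_sum_le_sum_abs _ _).trans (Finset.sum_le_sum fun e _ => ?_)
    rw [abs_mul]
    exact mul_le_mul_of_nonneg_right (hv s e) (abs_nonneg _)
  refine h1.trans ?_
  exact Finset.single_le_sum (f := fun s => ∑ e, (|a s e| + |b s e|) * |J e|)
    (fun s _ => Finset.sum_nonneg fun e _ => by positivity) (Finset.mem_univ s)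

lemma log_part_bounds (v : S → ι → ℝ) (J : ι → ℝ) (M : ℝ) (h : ∀ s, |zf v J s| ≤ M) :
    |Real.log (part v J)| ≤ M + Real.log (Fintype.card S) := by
  obtain ⟨s0⟩ := (inferInstance : Nonempty S)
  have hc : (1 : ℝ) ≤ Fintype.card S := by
    exact_mod_cast Fintype.card_pos
  have hlc : 0 ≤ Real.log (Fintype.card S) := Real.log_nonneg hc
  have h1 : Real.exp (-M) ≤ part v J := by
    have h2 : Real.exp (zf v J s0) ≤ part v J :=
      Finset.single_le_sum (f := fun s => Real.exp (zf v J s)) (fun _ _ => (Real.exp_pos _).le)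
        (Finset.mem_univ s0)
    refine (Real.exp_le_exp.mpr ?_).trans h2
    exact (abs_le.mp (h s0)).1
  have h2 : part v J ≤ Fintype.card S * Real.exp M := by
    unfold part
    refine (Finset.sum_le_sum fun s _ => Real.exp_le_exp.mpr (abs_le.mp (h s)).2).trans ?_
    simp
  rw [abs_le]
  constructor
  · have h3 := Real.log_le_log (Real.exp_pos _) h1
    rw [Real.log_exp] at h3
    linarith
  · have h3 := Real.log_le_log (part_pos v J) h2
    rw [Real.log_mul (by positivity) (Real.exp_pos _).ne', Real.log_exp] at h3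
    linarith

lemma continuous_log_part (v : S → ι → ℝ) : Continuous fun J => Real.log (part v J) :=
  (continuous_part v).log fun J => (part_pos v J).ne'

lemma integrable_log_part (v : S → ι → ℝ) :
    Integrable (fun J => Real.log (part v J)) (gM ι) := by
  refine Integrable.mono' ((integrable_bnd v v).add (integrable_const
    (Real.log (Fintype.card S)))) (continuous_log_part v).measurable.aestronglyMeasurable
    (Filter.Eventually.of_forall fun J => ?_)
  rw [Real.norm_eq_abs]
  exact log_part_bounds v J _ fun s => abs_zf_le v v v (fun s e => by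
    have := abs_nonneg (v s e); linarith) J s

lemma phi_deriv (a b : S → ι → ℝ) (θ : ℝ) :
    HasDerivAt (phi a b) (∫ J, ∑ s, pp (ww a b θ) J s * zf (wd a b θ) J s ∂(gM ι)) θ := by
  have key := hasDerivAt_integral_of_dominated_loc_of_deriv_le (μ := gM ι) (s := Set.univ)
    (F := fun θ J => Real.log (part (ww a b θ) J)) (x₀ := θ)
    (F' := fun θ J => ∑ s, pp (ww a b θ) J s * zf (wd a b θ) J s)
    (bound := bnd a b) Filter.univ_mem
    (Filter.Eventually.of_forall fun x =>
      (continuous_log_part (ww a b x)).measurable.aestronglyMeasurable)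
    (integrable_log_part _)
    (by
      apply Continuous.aestronglyMeasurable
      exact continuous_finsetSum _ fun s _ => (continuous_pp _ s).mul (continuous_zf _ s))
    (Filter.Eventually.of_forall fun J x _ => by
      rw [Real.norm_eq_abs]
      refine (Finset.abs_sum_le_sum_abs _ _).trans ?_
      calc ∑ s, |pp (ww a b x) J s * zf (wd a b x) J s|
          ≤ ∑ s, pp (ww a b x) J s * bnd a b J := by
            apply Finset.sum_le_sum
            intro s _
            rw [abs_mul, abs_of_nonneg (pp_nonneg _ J s)]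
            exact mul_le_mul_of_nonneg_left
              (abs_zf_le a b _ (fun s e => abs_wd_le a b x s e) J s) (pp_nonneg _ J s)
        _ = bnd a b J := by rw [← Finset.sum_mul, sum_pp, one_mul])
    (integrable_bnd a b)
    (Filter.Eventually.of_forall fun J x _ => by
      have := log_deriv (fun s θ => zf (ww a b θ) J s) (fun s => zf (wd a b x) J s) x
        (fun s => hasDerivAt_zf a b J s x)
      exact this)
  exact key.2

lemma integrable_pp_zf (v u : S → ι → ℝ) (s : S) :
    Integrable (fun J => pp v J s * zf u J s) (gM ι) := by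
  refine (integrable_zf u s).bdd_mul (c := 1) (continuous_pp v s).measurable.aestronglyMeasurable
    (Filter.Eventually.of_forall fun J => ?_)
  rw [Real.norm_eq_abs, abs_of_nonneg (pp_nonneg v J s)]
  exact pp_le_one v J s

/-- The derivative of the interpolation is nonnegative. -/
lemma phi_deriv_nonneg (a b : S → ι → ℝ) (horth : ∀ s t, ∑ e, a s e * b t e = 0)
    (hinc : ∀ s t, ∑ e, (a s e - a t e) ^ 2 ≤ ∑ e, (b s e - b t e) ^ 2)
    (θ : ℝ) (hθ : 0 ≤ Real.sin θ * Real.cos θ) :
    0 ≤ ∫ J, ∑ s, pp (ww a b θ) J s * zf (wd a b θ) J s ∂(gM ι) := by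
  set v := ww a b θ with hv
  set c := wd a b θ with hc
  set K : S → S → ℝ := fun s t => ∑ e, c s e * v t e with hK
  have hKe : ∀ s t, K s t = Real.sin θ * Real.cos θ *
      ((∑ e, b s e * b t e) - ∑ e, a s e * a t e) := by
    intro s t
    have h1 := horth s t
    have h2 := horth t s
    have h3 : K s t = Real.sin θ * Real.cos θ * ((∑ e, b s e * b t e) - ∑ e, a s e * a t e)
        - Real.sin θ ^ 2 * (∑ e, a s e * b t e) + Real.cos θ ^ 2 * (∑ e, a t e * b s e) := by
      rw [hK, ← Finset.sum_sub_distrib, Finset.mul_sum, Finset.mul_sum, Finset.mul_sum,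
        ← Finset.sum_sub_distrib, ← Finset.sum_add_distrib]
      apply Finset.sum_congr rfl
      intro e _
      simp only [hv, hc, ww, wd]
      ring
    rw [h3, h1, h2]
    ring
  have h1 : ∫ J, ∑ s, pp v J s * zf c J s ∂(gM ι)
      = ∑ s, ∫ J, pp v J s * (K s s - ∑ t, pp v J t * K s t) ∂(gM ι) := by
    rw [integral_finsetSum _ fun s _ => integrable_pp_zf v c s]
    apply Finset.sum_congr rfl
    intro s _
    have := ibp v (c s) s
    rw [← this]
    congr 1
    funext J
    unfold zf
    ring
  have hint : ∀ s, Integrable (fun J => pp v J s * (K s s - ∑ t, pp v J t * K s t)) (gM ι) := by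
    intro s
    have hcont : Continuous fun J => pp v J s * (K s s - ∑ t, pp v J t * K s t) := by
      refine (continuous_pp v s).mul (continuous_const.sub ?_)
      exact continuous_finsetSum _ fun t _ => (continuous_pp v t).mul continuous_const
    refine Integrable.mono' (integrable_const (|K s s| + ∑ t, |K s t|))
      hcont.measurable.aestronglyMeasurable (Filter.Eventually.of_forall fun J => ?_)
    rw [Real.norm_eq_abs, abs_mul, abs_of_nonneg (pp_nonneg v J s)]
    have h1 : |K s s - ∑ t, pp v J t * K s t| ≤ |K s s| + ∑ t, |K s t| := by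
      refine (abs_sub _ _).trans ?_
      have h2 : |∑ t, pp v J t * K s t| ≤ ∑ t, |K s t| := by
        refine (Finset.abs_sum_le_sum_abs _ _).trans (Finset.sum_le_sum fun t _ => ?_)
        rw [abs_mul, abs_of_nonneg (pp_nonneg v J t)]
        exact mul_le_of_le_one_left (abs_nonneg _) (pp_le_one v J t)
      linarith
    have h3 := pp_le_one v J s
    have h4 := pp_nonneg v J s
    have h5 := abs_nonneg (K s s - ∑ t, pp v J t * K s t)
    nlinarith
  rw [h1, ← integral_finsetSum _ fun s _ => hint s]
  apply integral_nonneg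
  intro J
  simp only [Pi.zero_apply]
  have h2 : ∑ s, pp v J s * (K s s - ∑ t, pp v J t * K s t)
      = (∑ s, ∑ t, pp v J s * pp v J t * (K s s + K t t - K s t - K t s)) / 2 := by
    have e1 : ∑ s, ∑ t, pp v J s * pp v J t * K s s = ∑ s, pp v J s * K s s := by
      apply Finset.sum_congr rfl
      intro s _
      calc ∑ t, pp v J s * pp v J t * K s s = (pp v J s * K s s) * ∑ t, pp v J t := by
            rw [Finset.mul_sum]
            apply Finset.sum_congr rfl
            intro t _; ring
        _ = _ := by rw [sum_pp, mul_one]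
    have e2 : ∑ s, ∑ t, pp v J s * pp v J t * K t t = ∑ s, pp v J s * K s s := by
      rw [Finset.sum_comm, ← e1]
      apply Finset.sum_congr rfl
      intro s _
      apply Finset.sum_congr rfl
      intro t _; ring
    have e3 : ∑ s, ∑ t, pp v J s * pp v J t * K t s = ∑ s, ∑ t, pp v J s * pp v J t * K s t := by
      rw [Finset.sum_comm]
      apply Finset.sum_congr rfl
      intro s _
      apply Finset.sum_congr rfl
      intro t _; ring
    have e4 : ∑ s, pp v J s * (K s s - ∑ t, pp v J t * K s t)
        = ∑ s, pp v J s * K s s - ∑ s, ∑ t, pp v J s * pp v J t * K s t := by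
      rw [← Finset.sum_sub_distrib]
      apply Finset.sum_congr rfl
      intro s _
      have h6 : pp v J s * (∑ t, pp v J t * K s t) = ∑ t, pp v J s * pp v J t * K s t := by
        rw [Finset.mul_sum]
        apply Finset.sum_congr rfl
        intro t _; ring
      rw [mul_sub, h6]
    have e5 : ∑ s, ∑ t, pp v J s * pp v J t * (K s s + K t t - K s t - K t s)
        = ∑ s, ∑ t, pp v J s * pp v J t * K s s + ∑ s, ∑ t, pp v J s * pp v J t * K t t
          - ∑ s, ∑ t, pp v J s * pp v J t * K s t - ∑ s, ∑ t, pp v J s * pp v J t * K t s := by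
      simp only [← Finset.sum_add_distrib, ← Finset.sum_sub_distrib]
      apply Finset.sum_congr rfl
      intro s _
      apply Finset.sum_congr rfl
      intro t _; ring
    rw [e4, e5, e1, e2, e3]
    ring
  rw [h2]
  apply div_nonneg _ (by norm_num)
  apply Finset.sum_nonneg
  intro s _
  apply Finset.sum_nonneg
  intro t _
  apply mul_nonneg (mul_nonneg (pp_nonneg v J s) (pp_nonneg v J t))
  rw [hKe, hKe, hKe, hKe]
  have h3 : Real.sin θ * Real.cos θ * ((∑ e, b s e * b s e) - ∑ e, a s e * a s e)
      + Real.sin θ * Real.cos θ * ((∑ e, b t e * b t e) - ∑ e, a t e * a t e)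
      - Real.sin θ * Real.cos θ * ((∑ e, b s e * b t e) - ∑ e, a s e * a t e)
      - Real.sin θ * Real.cos θ * ((∑ e, b t e * b s e) - ∑ e, a t e * a s e)
      = Real.sin θ * Real.cos θ * ((∑ e, (b s e - b t e) ^ 2) - ∑ e, (a s e - a t e) ^ 2) := by
    have e1 : ∀ x : S → ι → ℝ, ∑ e, (x s e - x t e) ^ 2 = ∑ e, x s e * x s e
        + ∑ e, x t e * x t e - ∑ e, x s e * x t e - ∑ e, x t e * x s e := by
      intro x
      rw [← Finset.sum_add_distrib, ← Finset.sum_sub_distrib, ← Finset.sum_sub_distrib]
      apply Finset.sum_congr rfl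
      intro e _; ring
    rw [e1 b, e1 a]
    ring
  rw [h3]
  exact mul_nonneg hθ (sub_nonneg.mpr (hinc s t))

/-- Comparison of free energies. -/
lemma free_le (a b : S → ι → ℝ) (horth : ∀ s t, ∑ e, a s e * b t e = 0)
    (hinc : ∀ s t, ∑ e, (a s e - a t e) ^ 2 ≤ ∑ e, (b s e - b t e) ^ 2) :
    ∫ J, Real.log (part a J) ∂(gM ι) ≤ ∫ J, Real.log (part b J) ∂(gM ι) := by
  have hpi := Real.pi_pos
  have hmono : MonotoneOn (phi a b) (Set.Icc 0 (Real.pi / 2)) := by
    apply monotoneOn_of_deriv_nonneg (convex_Icc _ _)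
    · exact fun θ _ => (phi_deriv a b θ).continuousAt.continuousWithinAt
    · exact fun θ _ => (phi_deriv a b θ).differentiableAt.differentiableWithinAt
    · intro θ hθ
      rw [interior_Icc] at hθ
      rw [(phi_deriv a b θ).deriv]
      apply phi_deriv_nonneg a b horth hinc
      apply mul_nonneg
      · exact Real.sin_nonneg_of_nonneg_of_le_pi hθ.1.le (by linarith [hθ.2])
      · exact Real.cos_nonneg_of_neg_pi_div_two_le_of_le (by linarith [hθ.1]) hθ.2.le
  have h := hmono (Set.left_mem_Icc.mpr (by positivity)) (Set.right_mem_Icc.mpr (by positivity))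
    (by positivity)
  have h0 : phi a b 0 = ∫ J, Real.log (part a J) ∂(gM ι) := by
    unfold phi
    have : ww a b 0 = a := by
      funext s e; simp [ww]
    rw [this]
  have h1 : phi a b (Real.pi / 2) = ∫ J, Real.log (part b J) ∂(gM ι) := by
    unfold phi
    have : ww a b (Real.pi / 2) = b := by
      funext s e; simp [ww]
    rw [this]
  rw [h0, h1] at h
  exact h

omit [Fintype S] [Nonempty S] in
lemma zf_smul (r : ℝ) (a : S → ι → ℝ) (J : ι → ℝ) (s : S) :
    zf (fun s e => r * a s e) J s = r * zf a J s := by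
  unfold zf
  rw [Finset.mul_sum]
  apply Finset.sum_congr rfl
  intro e _; ring

lemma integrable_sup_zf (a : S → ι → ℝ) : Integrable (fun J => ⨆ s, zf a J s) (gM ι) := by
  have h1 : Integrable (bnd a a) (gM ι) := integrable_bnd a a
  refine h1.mono' ?_ (Filter.Eventually.of_forall fun J => ?_)
  · apply Measurable.aestronglyMeasurable
    exact Measurable.iSup fun s => (continuous_zf a s).measurable
  · obtain ⟨s0⟩ := (inferInstance : Nonempty S)
    have hb : BddAbove (Set.range fun s => zf a J s) := (Set.finite_range _).bddAbove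
    have h2 : ∀ s, |zf a J s| ≤ bnd a a J := fun s => abs_zf_le a a a (fun s e => by
      have := abs_nonneg (a s e); linarith) J s
    rw [Real.norm_eq_abs, abs_le]
    constructor
    · have h3 : zf a J s0 ≤ ⨆ s, zf a J s := le_ciSup hb s0
      have h4 := (abs_le.mp (h2 s0)).1
      linarith
    · exact ciSup_le fun s => (le_abs_self _).trans (h2 s)

lemma sup_le_log (r : ℝ) (hr : 0 < r) (a : S → ι → ℝ) (J : ι → ℝ) :
    r * (⨆ s, zf a J s) ≤ Real.log (part (fun s e => r * a s e) J) := by
  rw [← le_div_iff₀' hr]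
  apply ciSup_le
  intro s
  rw [le_div_iff₀' hr, ← zf_smul, Real.le_log_iff_exp_le (part_pos _ _)]
  exact Finset.single_le_sum (f := fun s => Real.exp (zf (fun s e => r * a s e) J s))
    (fun _ _ => (Real.exp_pos _).le) (Finset.mem_univ s)

lemma log_le_sup (r : ℝ) (hr : 0 < r) (a : S → ι → ℝ) (J : ι → ℝ) :
    Real.log (part (fun s e => r * a s e) J)
      ≤ r * (⨆ s, zf a J s) + Real.log (Fintype.card S) := by
  have hc : (0 : ℝ) < Fintype.card S := by exact_mod_cast Fintype.card_pos
  have hb : BddAbove (Set.range fun s => zf a J s) := (Set.finite_range _).bddAbove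
  have h1 : part (fun s e => r * a s e) J
      ≤ Fintype.card S * Real.exp (r * (⨆ s, zf a J s)) := by
    unfold part
    have h2 : ∀ s, Real.exp (zf (fun s e => r * a s e) J s)
        ≤ Real.exp (r * (⨆ s, zf a J s)) := by
      intro s
      rw [zf_smul]
      exact Real.exp_le_exp.mpr (mul_le_mul_of_nonneg_left (le_ciSup hb s) hr.le)
    refine (Finset.sum_le_sum fun s _ => h2 s).trans ?_
    simp
  have h2 := Real.log_le_log (part_pos _ _) h1
  rw [Real.log_mul hc.ne' (Real.exp_pos _).ne', Real.log_exp] at h2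
  linarith

/-- Comparison of expected maxima, on one Gaussian space. -/
theorem sup_le_same (a b : S → ι → ℝ) (horth : ∀ s t, ∑ e, a s e * b t e = 0)
    (hinc : ∀ s t, ∑ e, (a s e - a t e) ^ 2 ≤ ∑ e, (b s e - b t e) ^ 2) :
    ∫ J, ⨆ s, zf a J s ∂(gM ι) ≤ ∫ J, ⨆ s, zf b J s ∂(gM ι) := by
  set A := ∫ J, ⨆ s, zf a J s ∂(gM ι) with hA
  set B := ∫ J, ⨆ s, zf b J s ∂(gM ι) with hB
  have hc : (1 : ℝ) ≤ Fintype.card S := by exact_mod_cast Fintype.card_pos
  have hlc : 0 ≤ Real.log (Fintype.card S) := Real.log_nonneg hc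
  have key : ∀ r : ℝ, 0 < r → r * A ≤ r * B + Real.log (Fintype.card S) := by
    intro r hr
    have h1 : r * A ≤ ∫ J, Real.log (part (fun s e => r * a s e) J) ∂(gM ι) := by
      rw [hA, ← integral_const_mul]
      exact integral_mono ((integrable_sup_zf a).const_mul r) (integrable_log_part _)
        fun J => sup_le_log r hr a J
    have h2 : ∫ J, Real.log (part (fun s e => r * b s e) J) ∂(gM ι)
        ≤ r * B + Real.log (Fintype.card S) := by
      have h3 : ∫ J, (r * (⨆ s, zf b J s) + Real.log (Fintype.card S)) ∂(gM ι)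
          = r * B + Real.log (Fintype.card S) := by
        rw [integral_add ((integrable_sup_zf b).const_mul r) (integrable_const _),
          integral_const_mul, ← hB]
        simp
      rw [← h3]
      exact integral_mono (integrable_log_part _)
        (((integrable_sup_zf b).const_mul r).add (integrable_const _))
        fun J => log_le_sup r hr b J
    have h4 := free_le (fun s e => r * a s e) (fun s e => r * b s e)
      (fun s t => by
        have : ∑ e, r * a s e * (r * b t e) = r ^ 2 * ∑ e, a s e * b t e := by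
          rw [Finset.mul_sum]
          apply Finset.sum_congr rfl
          intro e _; ring
        rw [this, horth, mul_zero])
      (fun s t => by
        have h5 : ∀ x : S → ι → ℝ, ∑ e, (r * x s e - r * x t e) ^ 2
            = r ^ 2 * ∑ e, (x s e - x t e) ^ 2 := by
          intro x
          rw [Finset.mul_sum]
          apply Finset.sum_congr rfl
          intro e _; ring
        rw [h5 a, h5 b]
        exact mul_le_mul_of_nonneg_left (hinc s t) (sq_nonneg r))
    linarith
  by_contra hlt
  push Not at hlt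
  have hd : 0 < A - B := sub_pos.mpr hlt
  have := key ((Real.log (Fintype.card S) + 1) / (A - B)) (by positivity)
  have h2 : (Real.log (Fintype.card S) + 1) / (A - B) * A
      - (Real.log (Fintype.card S) + 1) / (A - B) * B = Real.log (Fintype.card S) + 1 := by
    rw [← mul_sub, div_mul_cancel₀ _ hd.ne']
  linarith

end Vale.Agent.P367.GT
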