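import Vale.Agent.P367.GT.Stein

open MeasureTheory ProbabilityTheory

namespace Vale.Agent.P367.GT

variable {S ι : Type*} [Fintype S] [Nonempty S] [Fintype ι]

/-- linear form -/
noncomputable def zf (v : S → ι → ℝ) (J : ι → ℝ) (s : S) : ℝ := ∑ e, v s e * J e

/-- partition function -/
noncomputable def part (v : S → ι → ℝ) (J : ι → ℝ) : ℝ := ∑ s, Real.exp (zf v J s)

/-- Gibbs weights -/
noncomputable def pp (v : S → ι → ℝ) (J : ι → ℝ) (s : S) : ℝ := Real.exp (zf v J s) / part v J

omit [Fintype S] [Nonempty S] in
lemma continuous_zf (v : S → ι → ℝ) (s : S) : Continuous fun J => zf v J s := by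
  unfold zf; fun_prop

lemma part_pos (v : S → ι → ℝ) (J : ι → ℝ) : 0 < part v J :=
  Finset.sum_pos (fun _ _ => Real.exp_pos _) Finset.univ_nonempty

omit [Nonempty S] in
lemma continuous_part (v : S → ι → ℝ) : Continuous fun J => part v J := by
  unfold part
  exact continuous_finsetSum _ fun s _ => Real.continuous_exp.comp (continuous_zf v s)

lemma continuous_pp (v : S → ι → ℝ) (s : S) : Continuous fun J => pp v J s := by
  unfold pp
  exact (Real.continuous_exp.comp (continuous_zf v s)).div (continuous_part v)
    fun J => (part_pos v J).ne'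

lemma pp_nonneg (v : S → ι → ℝ) (J : ι → ℝ) (s : S) : 0 ≤ pp v J s :=
  div_nonneg (Real.exp_pos _).le (part_pos v J).le

lemma sum_pp (v : S → ι → ℝ) (J : ι → ℝ) : ∑ s, pp v J s = 1 := by
  unfold pp
  rw [← Finset.sum_div]
  exact div_self (part_pos v J).ne'

lemma pp_le_one (v : S → ι → ℝ) (J : ι → ℝ) (s : S) : pp v J s ≤ 1 := by
  rw [← sum_pp v J]
  exact Finset.single_le_sum (fun t _ => pp_nonneg v J t) (Finset.mem_univ s)

lemma softmax_deriv (z : S → ℝ → ℝ) (z' : S → ℝ) (x : ℝ) (hz : ∀ s, HasDerivAt (z s) (z' s) x)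
    (s : S) :
    HasDerivAt (fun y => Real.exp (z s y) / ∑ t, Real.exp (z t y))
      ((Real.exp (z s x) / ∑ t, Real.exp (z t x)) *
        (z' s - ∑ t, (Real.exp (z t x) / ∑ r, Real.exp (z r x)) * z' t)) x := by
  have h1 : HasDerivAt (fun y => Real.exp (z s y)) (Real.exp (z s x) * z' s) x := (hz s).exp
  have h2 : HasDerivAt (fun y => ∑ t, Real.exp (z t y)) (∑ t, Real.exp (z t x) * z' t) x :=
    HasDerivAt.fun_sum fun t _ => (hz t).exp
  have hpos : 0 < ∑ t, Real.exp (z t x) :=
    Finset.sum_pos (fun _ _ => Real.exp_pos _) Finset.univ_nonempty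
  have h3 := h1.div h2 hpos.ne'
  have h4 : (Real.exp (z s x) * z' s * (∑ t, Real.exp (z t x))
      - Real.exp (z s x) * (∑ t, Real.exp (z t x) * z' t)) / (∑ t, Real.exp (z t x)) ^ 2
      = (Real.exp (z s x) / ∑ t, Real.exp (z t x)) *
        (z' s - ∑ t, (Real.exp (z t x) / ∑ r, Real.exp (z r x)) * z' t) := by
    have h5 : ∑ t, (Real.exp (z t x) / ∑ r, Real.exp (z r x)) * z' t
        = (∑ t, Real.exp (z t x) * z' t) / ∑ r, Real.exp (z r x) := by
      rw [Finset.sum_div]
      apply Finset.sum_congr rfl
      intro t _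
      ring
    rw [h5]
    field_simp
  rw [← h4]
  exact h3

lemma log_deriv (z : S → ℝ → ℝ) (z' : S → ℝ) (x : ℝ) (hz : ∀ s, HasDerivAt (z s) (z' s) x) :
    HasDerivAt (fun y => Real.log (∑ t, Real.exp (z t y)))
      (∑ t, (Real.exp (z t x) / ∑ r, Real.exp (z r x)) * z' t) x := by
  have h2 : HasDerivAt (fun y => ∑ t, Real.exp (z t y)) (∑ t, Real.exp (z t x) * z' t) x :=
    HasDerivAt.fun_sum fun t _ => (hz t).exp
  have hpos : 0 < ∑ t, Real.exp (z t x) :=
    Finset.sum_pos (fun _ _ => Real.exp_pos _) Finset.univ_nonempty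
  have h3 := h2.log hpos.ne'
  rw [Finset.sum_div] at h3
  refine h3.congr_deriv ?_
  apply Finset.sum_congr rfl
  intro t _
  ring

lemma integrable_coord (e : ι) : Integrable (fun J : ι → ℝ => J e) (gM ι) :=
  integrable_comp_eval (μ := fun _ : ι => gaussianReal 0 1) (i := e) (f := fun x => x)
    ((memLp_id_gaussianReal 1).integrable le_rfl)

omit [Fintype S] [Nonempty S] in
lemma integrable_zf (v : S → ι → ℝ) (s : S) : Integrable (fun J => zf v J s) (gM ι) := by
  unfold zf
  exact integrable_finsetSum _ fun e _ => (integrable_coord e).const_mul _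

/-- Integration by parts for Gibbs weights. -/
lemma ibp (v : S → ι → ℝ) (c : ι → ℝ) (s : S) :
    ∫ J, (∑ e, c e * J e) * pp v J s ∂(gM ι)
      = ∫ J, pp v J s * ((∑ e, c e * v s e) - ∑ t, pp v J t * ∑ e, c e * v t e) ∂(gM ι) := by
  classical
  have hone : ∀ e, ∫ J, J e * pp v J s ∂(gM ι)
      = ∫ J, pp v J s * (v s e - ∑ t, pp v J t * v t e) ∂(gM ι) := by
    intro e
    have hcont : Continuous fun J => pp v J s * (v s e - ∑ t, pp v J t * v t e) := by
      refine (continuous_pp v s).mul (continuous_const.sub ?_)
      exact continuous_finsetSum _ fun t _ => (continuous_pp v t).mul continuous_const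
    apply stein_pi e (fun J => pp v J s)
      (fun J => pp v J s * (v s e - ∑ t, pp v J t * v t e))
      (1 + |v s e| + ∑ t, |v t e|) (continuous_pp v s).measurable hcont.measurable
    · intro J x
      have hz : ∀ t, HasDerivAt (fun y => zf v (Function.update J e y) t) (v t e) x := by
        intro t
        unfold zf
        have h1 : HasDerivAt (fun y => ∑ e', v t e' * Function.update J e y e')
            (∑ e', v t e' * (Pi.single e (1 : ℝ) : ι → ℝ) e') x := by
          apply HasDerivAt.fun_sum
          intro e' _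
          exact ((hasDerivAt_pi.mp (hasDerivAt_update J e x)) e').const_mul _
        have h2 : ∑ e', v t e' * (Pi.single e (1 : ℝ) : ι → ℝ) e' = v t e := by
          simp [Pi.single_apply]
        rw [h2] at h1
        exact h1
      exact softmax_deriv (fun t y => zf v (Function.update J e y) t) (fun t => v t e) x hz s
    · intro J
      rw [abs_of_nonneg (pp_nonneg v J s)]
      have := pp_le_one v J s
      have h2 := abs_nonneg (v s e)
      have h3 : 0 ≤ ∑ t, |v t e| := Finset.sum_nonneg fun t _ => abs_nonneg _
      linarith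
    · intro J
      rw [abs_mul, abs_of_nonneg (pp_nonneg v J s)]
      have h1 : |v s e - ∑ t, pp v J t * v t e| ≤ |v s e| + ∑ t, |v t e| := by
        refine (abs_sub _ _).trans ?_
        have h2 : |∑ t, pp v J t * v t e| ≤ ∑ t, |v t e| := by
          refine (Finset.abs_sum_le_sum_abs _ _).trans (Finset.sum_le_sum fun t _ => ?_)
          rw [abs_mul, abs_of_nonneg (pp_nonneg v J t)]
          exact mul_le_of_le_one_left (abs_nonneg _) (pp_le_one v J t)
        linarith
      have h3 := pp_le_one v J s
      have h4 := pp_nonneg v J s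
      have h5 := abs_nonneg (v s e - ∑ t, pp v J t * v t e)
      nlinarith
  have hint1 : ∀ e, Integrable (fun J : ι → ℝ => J e * pp v J s) (gM ι) := by
    intro e
    have := (integrable_coord e).bdd_mul (c := 1) (f := fun J => pp v J s)
      (continuous_pp v s).measurable.aestronglyMeasurable
      (Filter.Eventually.of_forall fun J => by
        rw [Real.norm_eq_abs, abs_of_nonneg (pp_nonneg v J s)]; exact pp_le_one v J s)
    refine this.congr (Filter.Eventually.of_forall fun J => ?_)
    simp only [mul_comm]
  have hint2 : ∀ e, Integrable (fun J : ι → ℝ => pp v J s * (v s e - ∑ t, pp v J t * v t e))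
      (gM ι) := by
    intro e
    have hcont : Continuous fun J => pp v J s * (v s e - ∑ t, pp v J t * v t e) := by
      refine (continuous_pp v s).mul (continuous_const.sub ?_)
      exact continuous_finsetSum _ fun t _ => (continuous_pp v t).mul continuous_const
    refine Integrable.mono' (integrable_const (|v s e| + ∑ t, |v t e|))
      hcont.measurable.aestronglyMeasurable (Filter.Eventually.of_forall fun J => ?_)
    rw [Real.norm_eq_abs, abs_mul, abs_of_nonneg (pp_nonneg v J s)]
    have h1 : |v s e - ∑ t, pp v J t * v t e| ≤ |v s e| + ∑ t, |v t e| := by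
      refine (abs_sub _ _).trans ?_
      have h2 : |∑ t, pp v J t * v t e| ≤ ∑ t, |v t e| := by
        refine (Finset.abs_sum_le_sum_abs _ _).trans (Finset.sum_le_sum fun t _ => ?_)
        rw [abs_mul, abs_of_nonneg (pp_nonneg v J t)]
        exact mul_le_of_le_one_left (abs_nonneg _) (pp_le_one v J t)
      linarith
    have h3 := pp_le_one v J s
    have h4 := pp_nonneg v J s
    have h5 := abs_nonneg (v s e - ∑ t, pp v J t * v t e)
    nlinarith
  calc ∫ J, (∑ e, c e * J e) * pp v J s ∂(gM ι)
      = ∫ J, ∑ e, c e * (J e * pp v J s) ∂(gM ι) := by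
        congr 1; funext J
        rw [Finset.sum_mul]
        apply Finset.sum_congr rfl
        intro e _; ring
    _ = ∑ e, c e * ∫ J, J e * pp v J s ∂(gM ι) := by
        rw [integral_finsetSum _ fun e _ => (hint1 e).const_mul _]
        simp only [integral_const_mul]
    _ = ∑ e, c e * ∫ J, pp v J s * (v s e - ∑ t, pp v J t * v t e) ∂(gM ι) := by
        simp only [hone]
    _ = ∫ J, ∑ e, c e * (pp v J s * (v s e - ∑ t, pp v J t * v t e)) ∂(gM ι) := by
        rw [integral_finsetSum _ fun e _ => (hint2 e).const_mul _]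
        simp only [integral_const_mul]
    _ = _ := by
        congr 1; funext J
        have h1 : ∑ t, pp v J t * ∑ e, c e * v t e = ∑ e, c e * ∑ t, pp v J t * v t e := by
          simp only [Finset.mul_sum]
          rw [Finset.sum_comm]
          apply Finset.sum_congr rfl
          intro e _
          apply Finset.sum_congr rfl
          intro t _
          ring
        rw [h1, ← Finset.sum_sub_distrib, Finset.mul_sum]
        apply Finset.sum_congr rfl
        intro e _
        ring

end Vale.Agent.P367.GT
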